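import Vale.Agent.P260.H283.Top
import Vale.Agent.P260.R3.H283.Cov

/-!
# P260: equivariant maps and minimal families
-/

open Set Topology
open Vale.Agent.P260.H283

namespace Vale.Agent.P260.R3.H283

variable {n : ℕ} {M N : Type*} [TopologicalSpace M] [T2Space M] [CompactSpace M]
  [ConnectedSpace M] [ChartedSpace (EuclideanSpace ℝ (Fin n)) M] [TopologicalSpace N] [T2Space N]
  [CompactSpace N] [ChartedSpace (EuclideanSpace ℝ (Fin n)) N]

omit [T2Space M] [CompactSpace M] [ConnectedSpace M]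
  [ChartedSpace (EuclideanSpace ℝ (Fin n)) M] [T2Space N] [CompactSpace N]
  [ChartedSpace (EuclideanSpace ℝ (Fin n)) N] in
/-- The fibres of an equivariant map over an orbit. -/
theorem fib_act {f : C(M, N)} {G : Type*} {a : G → M ≃ₜ M} {b : G → N ≃ₜ N}
    (heq : ∀ s x, f (a s x) = b s (f x)) (s : G) (y : N) :
    f ⁻¹' {b s y} = a s '' (f ⁻¹' {y}) := by
  ext x
  constructor
  · intro hx
    have hx' : f x = b s y := hx
    refine ⟨(a s).symm x, ?_, (a s).apply_symm_apply x⟩
    have h1 := heq s ((a s).symm x)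
    rw [(a s).apply_symm_apply, hx'] at h1
    exact ((b s).injective h1).symm
  · rintro ⟨x, hx, rfl⟩
    have hx' : f x = y := hx
    show f (a s x) = b s y
    rw [heq, hx']

/-- **(D1)** An equivariant map with a homotopy section onto a minimal system which has finite
fibres over some nonempty open set is a homeomorphism. -/
theorem act_finite (hn : 0 < n) (f : C(M, N)) (g : C(N, M))
    (hfg : (f.comp g).Homotopic (ContinuousMap.id N)) {G : Type*} (a : G → M ≃ₜ M)
    (b : G → N ≃ₜ N) (heq : ∀ s x, f (a s x) = b s (f x))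
    (hmin : ∀ y, Dense (range fun s => b s y)) {V : Set N} (hV : IsOpen V) (hVne : V.Nonempty)
    (hfin : ∀ y ∈ V, (f ⁻¹' {y}).Finite) : IsHomeomorph f := by
  have hs := top_surj (n := n) hn f g hfg
  have hallfin : ∀ y, (f ⁻¹' {y}).Finite := by
    intro y
    obtain ⟨z, hzV, ⟨s, rfl⟩⟩ := (hmin y).inter_open_nonempty V hV hVne
    have h1 := hfin _ hzV
    have h2 : (f ⁻¹' {b s y}).Finite := h1
    rw [fib_act heq] at h2
    exact Set.Finite.of_finite_image h2 (a s).injective.injOn
  rw [isHomeomorph_iff_continuous_bijective]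
  refine ⟨f.continuous, ?_, hs⟩
  by_contra hninj
  obtain ⟨x1, x2, h12, hne⟩ : ∃ x1 x2, f x1 = f x2 ∧ x1 ≠ x2 := by
    by_contra h
    exact hninj fun x1 x2 h12 => by
      by_contra hne
      exact h ⟨x1, x2, h12, hne⟩
  obtain ⟨W, hW, hWne, -, m, -, -, U, hU, -, hWU, hUe⟩ := top_cover (n := n) hn f g hfg
    (y := f x1) Filter.univ_mem (fun z _ => hallfin z) (fun h => hne (h rfl h12.symm))
  refine hninj (inj_of_local f g hfg ?_)
  rw [isLocalHomeomorph_iff_isOpenEmbedding_restrict]
  intro x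
  obtain ⟨z, hzW, ⟨s, rfl⟩⟩ := (hmin (f x)).inter_open_nonempty W hW hWne
  have hx : a s x ∈ ⋃ i, U i := by
    rw [← hWU]
    show f (a s x) ∈ W
    rw [heq]
    exact hzW
  obtain ⟨i, hi⟩ := mem_iUnion.1 hx
  have hO : IsOpen (a s ⁻¹' U i) := (hU i).preimage (a s).continuous
  refine ⟨a s ⁻¹' U i, hO.mem_nhds hi, ?_⟩
  let h : (a s ⁻¹' U i : Set M) → U i := fun w => ⟨a s w, w.2⟩
  have hh : IsOpenEmbedding h := by
    refine IsOpenEmbedding.of_comp h (hU i).isOpenEmbedding_subtypeVal ?_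
    exact (a s).isOpenEmbedding.comp hO.isOpenEmbedding_subtypeVal
  have hcomp : (a s ⁻¹' U i).domRestrict f = (b s).symm ∘ (fun w : U i => f w) ∘ h := by
    funext w
    show f w = (b s).symm (f (a s w))
    rw [heq, (b s).symm_apply_apply]
  rw [hcomp]
  exact (b s).symm.isOpenEmbedding.comp ((hUe i).1.comp hh)

/-- **(D2)** -/
theorem act_light (hn : 0 < n) (f : C(M, N)) (g : C(N, M))
    (hfg : (f.comp g).Homotopic (ContinuousMap.id N)) {G : Type*} (a : G → M ≃ₜ M)
    (b : G → N ≃ₜ N) (heq : ∀ s x, f (a s x) = b s (f x))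
    (hmin : ∀ y, Dense (range fun s => b s y))
    (hfib : ∀ y, IsPreconnected (f ⁻¹' {y}) ∨ IsTotallyDisconnected (f ⁻¹' {y}))
    (y₀ : N) (hy₀ : IsPreconnected (f ⁻¹' {y₀}) ∨ (f ⁻¹' {y₀}).encard ≤ 2) (y : N) :
    IsConnected (f ⁻¹' {y}) := by
  have hs := top_surj (n := n) hn f g hfg
  refine ⟨?_, ?_⟩
  · obtain ⟨x, hx⟩ := hs y
    exact ⟨x, hx⟩
  by_contra hy
  obtain ⟨V, hV, hVne, -, h⟩ := top_local (n := n) hn f g hfg (y := y) Filter.univ_mem
    (fun z _ => hfib z) hy
  obtain ⟨z, hzV, ⟨s, rfl⟩⟩ := (hmin y₀).inter_open_nonempty V hV hVne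
  obtain ⟨h1, h2⟩ := h _ hzV
  have h1' : ¬ IsPreconnected (f ⁻¹' {b s y₀}) := h1
  have h2' : 3 ≤ (f ⁻¹' {b s y₀}).encard := h2
  rw [fib_act heq] at h1' h2'
  rcases hy₀ with h3 | h3
  · exact h1' (h3.image _ (a s).continuous.continuousOn)
  · rw [(a s).injective.encard_image] at h2'
    have h4 := h2'.trans h3
    exact absurd h4 (by decide)

/-- **(A)** If the points whose fibre is connected are dense in `M`, all fibres are connected. -/
theorem dense_connected (hn : 0 < n) (f : C(M, N)) (g : C(N, M))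
    (hfg : (f.comp g).Homotopic (ContinuousMap.id N))
    (hd : Dense {x : M | IsPreconnected (f ⁻¹' {f x})}) (y : N) : IsConnected (f ⁻¹' {y}) := by
  have hs := top_surj (n := n) hn f g hfg
  have : SecondCountableTopology M :=
    ChartedSpace.secondCountable_of_sigmaCompact (EuclideanSpace ℝ (Fin n)) M
  have : SecondCountableTopology N :=
    ChartedSpace.secondCountable_of_sigmaCompact (EuclideanSpace ℝ (Fin n)) N
  have : TopologicalSpace.MetrizableSpace M :=
    TopologicalSpace.metrizableSpace_of_t3_secondCountable M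
  have : TopologicalSpace.MetrizableSpace N :=
    TopologicalSpace.metrizableSpace_of_t3_secondCountable N
  let _ : MetricSpace M := TopologicalSpace.metrizableSpaceMetric M
  let _ : MetricSpace N := TopologicalSpace.metrizableSpaceMetric N
  refine ⟨?_, ?_⟩
  · obtain ⟨x, hx⟩ := hs y
    exact ⟨x, hx⟩
  refine fibres_int (n := n) hn f g hfg (S := {z | ¬ IsPreconnected (f ⁻¹' {z})})
    (fun z hz => not_not.1 hz) ?_ y
  rw [interior_eq_empty_iff_dense_compl]
  refine hd.mono fun x hx => ?_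
  exact fun h => h hx

/-- **(D3)** An equivariant map with a homotopy section from a minimal system with one connected
fibre has connected fibres. -/
theorem act_minimal (hn : 0 < n) (f : C(M, N)) (g : C(N, M))
    (hfg : (f.comp g).Homotopic (ContinuousMap.id N)) {G : Type*} (a : G → M ≃ₜ M)
    (b : G → N ≃ₜ N) (heq : ∀ s x, f (a s x) = b s (f x))
    (hmin : ∀ x, Dense (range fun s => a s x)) (y₀ : N) (hy₀ : IsPreconnected (f ⁻¹' {y₀}))
    (y : N) : IsConnected (f ⁻¹' {y}) := by
  obtain ⟨x₀, rfl⟩ := top_surj (n := n) hn f g hfg y₀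
  refine dense_connected (n := n) hn f g hfg ((hmin x₀).mono ?_) y
  rintro _ ⟨s, rfl⟩
  show IsPreconnected (f ⁻¹' {f (a s x₀)})
  rw [heq, fib_act heq]
  exact hy₀.image _ (a s).continuous.continuousOn

end Vale.Agent.P260.R3.H283
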