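import Vale.Agent.P260.R3.H283.Act

/-!
# P260: irreducible maps with a homotopy section
-/

open Set Topology TopologicalSpace
open Vale.Agent.P260.H283

namespace Vale.Agent.P260.R3.H283

/-- If no proper closed subset of `M` is mapped onto `N`, the fibres are connected. -/
theorem met_irr {n : ℕ} {M N : Type*} [MetricSpace M] [CompactSpace M] [ConnectedSpace M]
    [ChartedSpace (EuclideanSpace ℝ (Fin n)) M] [MetricSpace N] [CompactSpace N]
    [ChartedSpace (EuclideanSpace ℝ (Fin n)) N] (hn : 0 < n) (f : C(M, N)) (g : C(N, M))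
    (hfg : (f.comp g).Homotopic (ContinuousMap.id N)) (hs : Function.Surjective f)
    (hirr : ∀ A : Set M, IsClosed A → f '' A = univ → A = univ) (y : N) :
    IsPreconnected (f ⁻¹' {y}) := by
  rw [isPreconnected_closed_iff]
  intro A B hA hB hAB hneA hneB
  by_contra hemp
  rw [Set.not_nonempty_iff_eq_empty] at hemp
  have hFc : IsClosed (f ⁻¹' {y}) := isClosed_singleton.preimage f.continuous
  have hdis : Disjoint (f ⁻¹' {y} ∩ A) (f ⁻¹' {y} ∩ B) := by
    rw [disjoint_left]
    rintro x ⟨h1, h2⟩ ⟨-, h3⟩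
    have : x ∈ f ⁻¹' {y} ∩ (A ∩ B) := ⟨h1, h2, h3⟩
    rw [hemp] at this
    exact this
  obtain ⟨δ, hδ, hd⟩ := hdis.exists_cthickenings (hFc.inter hA).isCompact (hFc.inter hB)
  have key : ∀ A B : Set M, (f ⁻¹' {y} ∩ B).Nonempty →
      Disjoint (Metric.cthickening δ (f ⁻¹' {y} ∩ A)) (Metric.cthickening δ (f ⁻¹' {y} ∩ B)) →
      ∀ r > 0, Metric.ball y r ⊆ f '' Metric.cthickening δ (f ⁻¹' {y} ∩ A) → False := by
    intro A B hneB hd r hr hon
    obtain ⟨x₀, hx₀, hx₀B⟩ := hneB
    have hx₀y : f x₀ = y := hx₀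
    have hopen : IsOpen (Metric.thickening δ (f ⁻¹' {y} ∩ B) ∩ f ⁻¹' Metric.ball y r) :=
      Metric.isOpen_thickening.inter (Metric.isOpen_ball.preimage f.continuous)
    have hmem : x₀ ∈ Metric.thickening δ (f ⁻¹' {y} ∩ B) ∩ f ⁻¹' Metric.ball y r := by
      refine ⟨Metric.self_subset_thickening hδ _ ⟨hx₀, hx₀B⟩, ?_⟩
      show f x₀ ∈ Metric.ball y r
      rw [hx₀y]
      exact Metric.mem_ball_self hr
    have huniv := hirr _ hopen.isClosed_compl (by
      refine eq_univ_of_forall fun z => ?_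
      obtain ⟨x, rfl⟩ := hs z
      by_cases hx : x ∈ Metric.thickening δ (f ⁻¹' {y} ∩ B) ∩ f ⁻¹' Metric.ball y r
      · obtain ⟨x', hx', hx'f⟩ := hon hx.2
        refine ⟨x', fun h => ?_, hx'f⟩
        exact (disjoint_left.1 hd) hx' (Metric.thickening_subset_cthickening _ _ h.1)
      · exact ⟨x, hx, rfl⟩)
    have : x₀ ∈ (Metric.thickening δ (f ⁻¹' {y} ∩ B) ∩ f ⁻¹' Metric.ball y r)ᶜ := by
      rw [huniv]; trivial
    exact this hmem
  obtain ⟨ρ, hρ, htube⟩ := exists_tube f.continuous
    ((Metric.isOpen_thickening (δ := δ) (E := f ⁻¹' {y} ∩ A)).union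
      (Metric.isOpen_thickening (δ := δ) (E := f ⁻¹' {y} ∩ B))) (y := y) (by
      intro x hx
      rcases hAB hx with h | h
      · exact Or.inl (Metric.self_subset_thickening hδ _ ⟨hx, h⟩)
      · exact Or.inr (Metric.self_subset_thickening hδ _ ⟨hx, h⟩))
  have hcov : ∀ x, dist (f x) y < ρ → x ∈ Metric.cthickening δ (f ⁻¹' {y} ∩ A) ∨
      x ∈ Metric.cthickening δ (f ⁻¹' {y} ∩ B) := fun x hx =>
    (htube x hx).imp (fun h => Metric.thickening_subset_cthickening _ _ h)
      (fun h => Metric.thickening_subset_cthickening _ _ h)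
  rcases stepA (n := n) hn f g hfg Metric.isClosed_cthickening.isCompact
    Metric.isClosed_cthickening.isCompact hd hρ hcov with ⟨r, hr, hon⟩ | ⟨r, hr, hon⟩
  · exact key A B hneB hd r hr hon
  · exact key B A hneA hd.symm r hr hon

variable {n : ℕ} {M N : Type*} [TopologicalSpace M] [T2Space M] [CompactSpace M]
  [ConnectedSpace M] [ChartedSpace (EuclideanSpace ℝ (Fin n)) M] [TopologicalSpace N] [T2Space N]
  [CompactSpace N] [ChartedSpace (EuclideanSpace ℝ (Fin n)) N]

/-- **(A')** If no proper closed subset of `M` is mapped onto `N`, the fibres are connected. -/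
theorem irreducible_connected (hn : 0 < n) (f : C(M, N)) (g : C(N, M))
    (hfg : (f.comp g).Homotopic (ContinuousMap.id N))
    (hirr : ∀ A : Set M, IsClosed A → f '' A = univ → A = univ) (y : N) :
    IsConnected (f ⁻¹' {y}) := by
  have hs := top_surj (n := n) hn f g hfg
  have : SecondCountableTopology M :=
    ChartedSpace.secondCountable_of_sigmaCompact (EuclideanSpace ℝ (Fin n)) M
  have : SecondCountableTopology N :=
    ChartedSpace.secondCountable_of_sigmaCompact (EuclideanSpace ℝ (Fin n)) N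
  have : MetrizableSpace M := metrizableSpace_of_t3_secondCountable M
  have : MetrizableSpace N := metrizableSpace_of_t3_secondCountable N
  let _ : MetricSpace M := metrizableSpaceMetric M
  let _ : MetricSpace N := metrizableSpaceMetric N
  refine ⟨?_, met_irr (n := n) hn f g hfg hs hirr y⟩
  obtain ⟨x, hx⟩ := hs y
  exact ⟨x, hx⟩

/-- Light maps with connected fibres are homeomorphisms. -/
theorem homeo_of_light (hn : 0 < n) (f : C(M, N)) (g : C(N, M))
    (hfg : (f.comp g).Homotopic (ContinuousMap.id N)) (hc : ∀ y, IsConnected (f ⁻¹' {y}))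
    (hlight : ∀ y, IsTotallyDisconnected (f ⁻¹' {y})) : IsHomeomorph f :=
  homeo_of_fibres f (top_surj (n := n) hn f g hfg) (fun y => (hc y).isPreconnected) hlight

end Vale.Agent.P260.R3.H283
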